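import Vale.Agent.P037.Defs
import Vale.Agent.P037.Main

namespace Vale.Agent.Results.P037.DoublyExpRemoval

open Vale.Agent.P037

/-- Doubly exponential removal bound for every ordered binary pattern. -/
theorem result :
    ∀ (k : ℕ) (H : Fin k → Fin k → Bool), ∃ C : ℝ, 0 < C ∧
      ∀ (n : ℕ) (A : Fin n → Fin n → Bool) (ε : ℝ), 1 ≤ n → 0 < ε → ε < 1 →
        (∀ B : Fin n → Fin n → Bool, copyCount H B = 0 →
          ε * (n : ℝ) ^ 2 ≤ (diffCount A B : ℝ)) →
        Real.exp (-Real.exp ((2 / ε) ^ C)) * (n : ℝ) ^ (2 * k) ≤ (copyCount H A : ℝ) :=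
  fun k H => main_real k H

end Vale.Agent.Results.P037.DoublyExpRemoval
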