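import Vale.Agent.P037.Defs
import Vale.Agent.P037.Disproof.Final

namespace Vale.Agent.Results.P037.PolyRemovalFalse

open Vale.Agent.P037

/-- A fixed binary pattern has no polynomial removal bound. -/
theorem result :
    ∃ H : Fin 16 → Fin 16 → Bool, ∀ c C : ℝ, 0 < c → 0 < C →
      ∃ (n : ℕ) (A : Fin n → Fin n → Bool) (ε : ℝ), 1 ≤ n ∧ 0 < ε ∧ ε < 1 ∧
        (∀ B : Fin n → Fin n → Bool, copyCount H B = 0 →
          ε * (n : ℝ) ^ 2 ≤ (diffCount A B : ℝ)) ∧
        (copyCount H A : ℝ) < c * ε ^ C * (n : ℝ) ^ (2 * 16) :=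
  ⟨Disproof.pat, fun c C hc _ => Disproof.counterexample c C hc⟩

end Vale.Agent.Results.P037.PolyRemovalFalse
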